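import Mathlib.Init

/-! # P122 / AN : withdrawn (helper301)

The analytic interface is `Vale/Agent/P122/AN/Defs.lean`. This file declares nothing. -/
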